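import Vale.Agent.P307.Pure
import Vale.Agent.P307.Dec
import Vale.Agent.P307.Inv
import Vale.Agent.P307.Map

open Cardinal Set Vale.Agent.P307

universe u

theorem Vale.Agent.Results.P307.A_bdeg.result (l : Cardinal.{u})
    (L : FirstOrder.Language.{u, u}) [L.IsRelational] [IsEmpty (L.Relations 0)] (K : AEC L)
    (hLS : K.LS l) (hdeg : K.Deg l) (κ κ' : Cardinal.{u}) (hκ : 2 ^ l < κ) (hκ' : 2 ^ l < κ') :
    K.Cat κ → K.Cat κ' := by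
  obtain ⟨Λ, rfl⟩ : ∃ Λ : Type u, Cardinal.mk Λ = l := ⟨l.out, mk_out l⟩
  have : Infinite Λ := infinite_iff.2 hLS.1
  have h0 : Cardinal.mk Λ < 2 ^ Cardinal.mk Λ := cantor _
  obtain ⟨C, hC⟩ := exists_CA K hLS h0.le
  have key : ∀ θ, 2 ^ Cardinal.mk Λ < θ → (K.Cat θ ↔ C.Cat θ) := by
    intro θ hθ
    have hθ' := h0.trans hθ
    have h1 : ∀ (N : Type u) [L.Structure N], K.Mem N → Cardinal.mk N = θ →
        ∃ (X : Type u) (k : X → Col L Λ), Nonempty (L.Equiv N (F fun x => (k x).1)) ∧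
          C.St k univ univ ∧ Cardinal.mk X = θ := fun N _ hN hN' => by
      obtain ⟨X, k, ⟨e⟩⟩ := dec (Λ := Λ) N (hdeg N hN)
      exact ⟨X, k, ⟨e⟩, (hC X k).2 (mem_iso K e hN),
        (card_F k hθ').1 ((mk_congr e.toEquiv).symm.trans hN')⟩
    constructor
    · rintro ⟨⟨N, _, hN, hN'⟩, h⟩
      obtain ⟨X, k, -, h2, h3⟩ := h1 N hN hN'
      refine ⟨⟨X, k, h2, h3⟩, fun Y Y' p p' hp hp' hY hY' t => ?_⟩
      obtain ⟨e⟩ := h _ _ ((hC Y p).1 hp) ((hC Y' p').1 hp') ((card_F p hθ').2 hY)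
        ((card_F p' hθ').2 hY')
      exact inv e t
    · rintro ⟨⟨X, k, h2, h3⟩, h⟩
      refine ⟨⟨_, _, (hC X k).1 h2, (card_F k hθ').2 h3⟩, fun M N _ _ hM hN hM' hN' => ?_⟩
      obtain ⟨Y, p, ⟨e⟩, h4, h5⟩ := h1 M hM hM'
      obtain ⟨Y', p', ⟨e'⟩, h4', h5'⟩ := h1 N hN hN'
      obtain ⟨e''⟩ := iso_of_mu (h Y Y' p p' h4 h4' h5 h5')
      exact ⟨e'.symm.comp (e''.comp e)⟩
  intro h
  exact (key κ' hκ').2 (C.transfer (card_Col hLS.2.1) (hLS.1.trans h0.le) hκ hκ' ((key κ hκ).1 h))
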